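import Vale.Agent.P271.H43.Min

/-!
# P271 / H43 : the one-step theorem (helper43)

`exists_theta` : along a path `κ_θ = (1 - θ) κ⁰ + θ κ¹` the minimal ratio takes every intermediate
value `R`; `Minim` : the properties of a minimiser.
-/

namespace Vale.Agent.P271.H43

open Module Filter Topology Vale.Agent.P271.Filt Vale.Agent.P271.Filt.Wt Vale.Agent.P271.Chain

variable {𝕜 : Type*} [RCLike 𝕜] {V : Type*} [AddCommGroup V] [Module 𝕜 V]
  [FiniteDimensional 𝕜 V]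

/-- `F` is a normalised minimiser of `a / S κ` with value `R`. -/
structure Minim (Hz : Submodule 𝕜 V) (a : Wt 𝕜 V → ℝ) (κ : Fin (finrank 𝕜 V) → ℝ) (R : ℝ)
    (F : Wt 𝕜 V) : Prop where
  mono : Monotone κ
  κpos : ∀ i, 0 < κ i
  Rpos : 0 < R
  dom : Dom Hz F
  S_eq : S κ F = 1
  a_eq : a F = R
  le : ∀ G, Dom Hz G → R * S κ G ≤ a G

namespace Minim

variable {Hz : Submodule 𝕜 V} {a : Wt 𝕜 V → ℝ} {κ : Fin (finrank 𝕜 V) → ℝ} {R : ℝ}
  {F : Wt 𝕜 V}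

/-- **Saturation**: a larger filtration with no larger threshold is equal to `F`. -/
theorem sat (h : Minim Hz a κ R F) {G : Wt 𝕜 V} (hG : Dom Hz G)
    (hle : ∀ x, x ≠ 0 → F.w x ≤ G.w x) (ha : a G ≤ R) {x : V} (hx : x ≠ 0) :
    G.w x = F.w x := by
  refine (eq_of_S_le h.mono h.κpos hle ?_ hx).symm
  rw [h.S_eq]
  have h1 := (h.le G hG).trans ha
  by_contra hcon
  push Not at hcon
  have := mul_lt_mul_of_pos_left hcon h.Rpos
  linarith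

/-- **The exact inequality (K3)**. -/
theorem K3 (h : Minim Hz a κ R F) {G : Wt 𝕜 V} (hG : Dom Hz G) {α d E : ℝ}
    (ha : a G ≤ α * R + d) (hS : α + E ≤ S κ G) : R * E ≤ d := by
  have h1 := h.le G hG
  have h2 := mul_le_mul_of_nonneg_left hS h.Rpos.le
  nlinarith

theorem exists_pos (h : Minim Hz a κ R F) : ∃ x, x ≠ 0 ∧ 0 < F.w x := by
  by_contra hcon
  push Not at hcon
  have h1 : S κ F = S κ (zeroF : Wt 𝕜 V) := S_congr h.mono (fun i => (h.κpos i).le) fun x hx => by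
    rw [zeroF_w]
    exact le_antisymm (hcon x hx) (h.dom.nonneg x hx)
  have h2 : S κ (zeroF : Wt 𝕜 V) = 0 := by simp [S]
  rw [h.S_eq, h2] at h1
  norm_num at h1

end Minim

namespace Slope

variable {Hz : Submodule 𝕜 V} {a : Wt 𝕜 V → ℝ} {c0 : ℝ}

theorem exists_minim (h : Slope Hz a c0) {κ : Fin (finrank 𝕜 V) → ℝ} (hκ : Monotone κ)
    (hκ0 : ∀ i, 0 < κ i) (hHz : Hz ≠ ⊥) : ∃ R F, Minim Hz a κ R F := by
  obtain ⟨F, h1, h2, h3, h4⟩ := h.exists_min hκ hκ0 hHz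
  exact ⟨a F, F, hκ, hκ0, h3, h1, h2, rfl, h4⟩

/-- the path of coefficients -/
def path {N : ℕ} (κ0 κ1 : Fin N → ℝ) (θ : ℝ) : Fin N → ℝ := fun i => (1 - θ) * κ0 i + θ * κ1 i

omit [FiniteDimensional 𝕜 V] in
theorem S_path [FiniteDimensional 𝕜 V] (κ0 κ1 : Fin (finrank 𝕜 V) → ℝ) (θ : ℝ) (G : Wt 𝕜 V) :
    S (path κ0 κ1 θ) G = (1 - θ) * S κ0 G + θ * S κ1 G := by
  have : path κ0 κ1 θ = (1 - θ) • κ0 + θ • κ1 := rfl
  rw [this, S_add, S_smul, S_smul]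

/-- **The one-step theorem.** -/
theorem exists_theta (h : Slope Hz a c0) {κ0 κ1 : Fin (finrank 𝕜 V) → ℝ} (hm0 : Monotone κ0)
    (hm1 : Monotone κ1) (hp0 : ∀ i, 0 < κ0 i) (hp1 : ∀ i, 0 ≤ κ1 i) (hHz : Hz ≠ ⊥)
    {C R R' : ℝ} (hC : 0 < C) (hR : 0 < R) (hRR' : R < R')
    (hC0 : ∀ G, Dom Hz G → S κ0 G ≤ C * a G)
    (h1 : ∀ G, Dom Hz G → R' * S κ1 G ≤ a G)
    (h0 : ∃ G, Dom Hz G ∧ 0 < S κ0 G ∧ a G ≤ R * S κ0 G) :
    ∃ θ : ℝ, 0 ≤ θ ∧ θ < 1 ∧ 1 / R - 1 / R' ≤ (1 - θ) * C ∧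
      (∀ R0 G0, Dom Hz G0 → 0 < S κ0 G0 → a G0 ≤ R0 * S κ0 G0 → R * (1 - θ) ≤ R0) ∧
      ∃ F, Minim Hz a (path κ0 κ1 θ) R F := by
  have hR' : 0 < R' := hR.trans hRR'
  have hinv : 1 / R' < 1 / R := one_div_lt_one_div_of_lt hR hRR'
  -- the set of values
  let Q : ℝ → Set ℝ := fun θ => {r | ∃ G : Wt 𝕜 V, Dom Hz G ∧ a G ≤ 1 ∧ S (path κ0 κ1 θ) G = r}
  let ρ : ℝ → ℝ := fun θ => sSup (Q θ)
  have hb0 : ∀ G, Dom Hz G → a G ≤ 1 → S κ0 G ≤ C := fun G hG ha =>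
    (hC0 G hG).trans (mul_le_of_le_one_right hC.le ha)
  have hb1 : ∀ G, Dom Hz G → a G ≤ 1 → S κ1 G ≤ 1 / R' := fun G hG ha => by
    rw [le_div_iff₀ hR']
    have := (h1 G hG).trans ha
    linarith
  have hn0 : ∀ G, Dom Hz G → 0 ≤ S κ0 G := fun G hG =>
    S_nonneg (fun i => (hp0 i).le) fun x hx => hG.nonneg x hx
  have hn1 : ∀ G, Dom Hz G → 0 ≤ S κ1 G := fun G hG =>
    S_nonneg hp1 fun x hx => hG.nonneg x hx
  have hne : ∀ θ, (Q θ).Nonempty := fun θ => ⟨_, zeroF, dom_zeroF Hz, by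
    rw [h.zero]; norm_num, rfl⟩
  have hQb : ∀ θ ∈ Set.Icc (0:ℝ) 1, ∀ r ∈ Q θ, r ≤ (1 - θ) * C + θ * (1 / R') := by
    rintro θ ⟨ht0, ht1⟩ r ⟨G, hG, ha, rfl⟩
    rw [S_path]
    exact add_le_add (mul_le_mul_of_nonneg_left (hb0 G hG ha) (by linarith))
      (mul_le_mul_of_nonneg_left (hb1 G hG ha) ht0)
  have hbdd : ∀ θ ∈ Set.Icc (0:ℝ) 1, BddAbove (Q θ) := fun θ hθ => ⟨_, hQb θ hθ⟩
  have hlip : ∀ θ ∈ Set.Icc (0:ℝ) 1, ∀ θ' ∈ Set.Icc (0:ℝ) 1,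
      ρ θ ≤ ρ θ' + (C + 1 / R') * |θ - θ'| := by
    intro θ hθ θ' hθ'
    refine csSup_le (hne θ) ?_
    rintro r ⟨G, hG, ha, rfl⟩
    have h2 : S (path κ0 κ1 θ') G ≤ ρ θ' := le_csSup (hbdd θ' hθ') ⟨G, hG, ha, rfl⟩
    have h3 : S (path κ0 κ1 θ) G - S (path κ0 κ1 θ') G = (θ - θ') * (S κ1 G - S κ0 G) := by
      rw [S_path, S_path]; ring
    have h4 : |S κ1 G - S κ0 G| ≤ C + 1 / R' := by
      rw [abs_le]
      constructor
      · have := hb0 G hG ha; have := hn1 G hG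
        have : 0 < 1 / R' := by positivity
        linarith
      · have := hb1 G hG ha; have := hn0 G hG; linarith
    have h5 : (θ - θ') * (S κ1 G - S κ0 G) ≤ (C + 1 / R') * |θ - θ'| := by
      refine (le_abs_self _).trans ?_
      rw [abs_mul, mul_comm]
      exact mul_le_mul_of_nonneg_right h4 (abs_nonneg _)
    linarith
  have hcont : ContinuousOn ρ (Set.Icc 0 1) := by
    have hK : LipschitzOnWith (Real.toNNReal (C + 1 / R')) ρ (Set.Icc 0 1) := by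
      refine LipschitzOnWith.of_dist_le_mul fun θ hθ θ' hθ' => ?_
      rw [Real.dist_eq, Real.dist_eq, Real.coe_toNNReal _ (by positivity), abs_le]
      have h2 := hlip θ hθ θ' hθ'
      have h3 := hlip θ' hθ' θ hθ
      rw [abs_sub_comm θ' θ] at h3
      constructor <;> linarith
    exact hK.continuousOn
  -- the end point
  obtain ⟨θ1, hθ1, hθ1', hθ1C⟩ : ∃ θ1 : ℝ, 0 ≤ θ1 ∧ θ1 < 1 ∧
      (1 - θ1) * C + θ1 * (1 / R') ≤ 1 / R := by
    refine ⟨max 0 (1 - (1 / R - 1 / R') / C), le_max_left _ _, ?_, ?_⟩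
    · have : 0 < (1 / R - 1 / R') / C := div_pos (by linarith) hC
      rw [max_lt_iff]
      constructor <;> linarith
    · set t := max 0 (1 - (1 / R - 1 / R') / C) with ht
      have h2 : 1 - (1 / R - 1 / R') / C ≤ t := le_max_right _ _
      have ht1 : t ≤ 1 := by
        have : 0 < (1 / R - 1 / R') / C := div_pos (by linarith) hC
        rw [ht, max_le_iff]
        constructor <;> linarith
      have h3 : (1 - t) ≤ (1 / R - 1 / R') / C := by linarith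
      rw [le_div_iff₀ hC] at h3
      have h4 : t * (1 / R') ≤ 1 / R' := mul_le_of_le_one_left (by positivity) ht1
      linarith
  have hend : ρ θ1 ≤ 1 / R := csSup_le (hne θ1) fun r hr => (hQb θ1 ⟨hθ1, hθ1'.le⟩ r hr).trans hθ1C
  have hstart : 1 / R ≤ ρ 0 := by
    obtain ⟨G, hG, hS, ha⟩ := h0
    have haG : 0 < a G := by
      have h2 := hC0 G hG
      by_contra hcon
      push Not at hcon
      have : C * a G ≤ 0 := mul_nonpos_of_nonneg_of_nonpos hC.le hcon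
      linarith
    refine le_trans ?_ (le_csSup (hbdd 0 ⟨le_rfl, zero_le_one⟩)
      ⟨scale (a G)⁻¹ G, hG.scale (inv_nonneg.2 haG.le), ?_, rfl⟩)
    · rw [S_path, S_scale hm0 (inv_nonneg.2 haG.le), sub_zero, one_mul, zero_mul, add_zero,
        ← div_eq_inv_mul, div_le_div_iff₀ hR haG]
      linarith
    · rw [h.hom G _ hG (inv_nonneg.2 haG.le), inv_mul_cancel₀ haG.ne']
  obtain ⟨θ, ⟨hθ0, hθle⟩, hθρ⟩ := intermediate_value_Icc' hθ1
    (hcont.mono (Set.Icc_subset_Icc_right hθ1'.le)) ⟨hend, hstart⟩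
  have hθ1lt : θ < 1 := hθle.trans_lt hθ1'
  have hθmem : θ ∈ Set.Icc (0:ℝ) 1 := ⟨hθ0, hθ1lt.le⟩
  have hmθ : Monotone (path κ0 κ1 θ) := fun i j hij =>
    add_le_add (mul_le_mul_of_nonneg_left (hm0 hij) (by linarith))
      (mul_le_mul_of_nonneg_left (hm1 hij) hθ0)
  have hpθ : ∀ i, 0 < path κ0 κ1 θ i := fun i =>
    add_pos_of_pos_of_nonneg (mul_pos (by linarith) (hp0 i)) (mul_nonneg hθ0 (hp1 i))
  obtain ⟨R₁, F, hF⟩ := h.exists_minim hmθ hpθ hHz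
  have hR1 : R₁ = R := by
    have h2 : ρ θ = 1 / R₁ := by
      apply le_antisymm
      · refine csSup_le (hne θ) ?_
        rintro r ⟨G, hG, ha, rfl⟩
        rw [le_div_iff₀ hF.Rpos]
        have := (hF.le G hG).trans ha
        linarith
      · refine le_csSup (hbdd θ hθmem) ⟨scale R₁⁻¹ F, hF.dom.scale (inv_nonneg.2 hF.Rpos.le), ?_,
          ?_⟩
        · rw [h.hom F _ hF.dom (inv_nonneg.2 hF.Rpos.le), hF.a_eq, inv_mul_cancel₀ hF.Rpos.ne']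
        · rw [S_scale hmθ (inv_nonneg.2 hF.Rpos.le), hF.S_eq, mul_one, one_div]
    rw [h2] at hθρ
    have h3 := hF.Rpos
    field_simp at hθρ
    linarith
  subst hR1
  refine ⟨θ, hθ0, hθ1lt, ?_, ?_, F, hF⟩
  · have h2 := hQb θ hθmem _ ⟨scale R₁⁻¹ F, hF.dom.scale (inv_nonneg.2 hF.Rpos.le), by
      rw [h.hom F _ hF.dom (inv_nonneg.2 hF.Rpos.le), hF.a_eq, inv_mul_cancel₀ hF.Rpos.ne'], rfl⟩
    rw [S_scale hmθ (inv_nonneg.2 hF.Rpos.le), hF.S_eq, mul_one, ← one_div] at h2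
    have h4 : θ * (1 / R') ≤ 1 / R' := mul_le_of_le_one_left (by positivity) hθ1lt.le
    linarith
  · intro R0 G0 hG0 hS0 ha0
    have h2 := (hF.le G0 hG0).trans ha0
    rw [S_path] at h2
    have h3 : R₁ * ((1 - θ) * S κ0 G0) ≤ R0 * S κ0 G0 := by
      have h4 : 0 ≤ R₁ * (θ * S κ1 G0) := mul_nonneg hF.Rpos.le (mul_nonneg hθ0 (hn1 G0 hG0))
      nlinarith
    rw [← mul_assoc] at h3
    exact le_of_mul_le_mul_right h3 hS0

end Slope

end Vale.Agent.P271.H43
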