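import Vale.Agent.P271.H43.Sorted

/-!
# P271 / H43 : the minimiser of `a / S κ` (helper43)
-/

namespace Vale.Agent.P271.H43

open Module Filter Topology Vale.Agent.P271.Filt Vale.Agent.P271.Filt.Wt Vale.Agent.P271.Chain

variable {𝕜 : Type*} [RCLike 𝕜] {V : Type*} [AddCommGroup V] [Module 𝕜 V]
  [FiniteDimensional 𝕜 V]

/-- The properties of the threshold functional `a` that are used. -/
structure Slope (Hz : Submodule 𝕜 V) (a : Wt 𝕜 V → ℝ) (c0 : ℝ) : Prop where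
  pos : 0 < c0
  low : ∀ F, Dom Hz F → c0 * F.T ≤ a F
  mono : ∀ F G, Dom Hz F → Dom Hz G → (∀ x, x ≠ 0 → F.w x ≤ G.w x) → a F ≤ a G
  hom : ∀ F t, Dom Hz F → 0 ≤ t → a (scale t F) = t * a F
  subadd : ∀ F G, Dom Hz F → Dom Hz G → a (F.joint G 1) ≤ a F + a G
  lsc : ∀ (b : ℕ → Basis (Fin (finrank 𝕜 V)) 𝕜 V) (b' : Basis (Fin (finrank 𝕜 V)) 𝕜 V)
    (lam : Fin (finrank 𝕜 V) → ℝ), Antitone lam → (∀ n, Dom Hz (ofBasis (b n) lam)) →
    (∀ (f : V →ₗ[𝕜] 𝕜) (i), Tendsto (fun n => f (b n i)) atTop (𝓝 (f (b' i)))) →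
    ∀ δ > 0, ∃ᶠ n in atTop, a (ofBasis b' lam) ≤ a (ofBasis (b n) lam) + δ

/-- **Compactness**: bounded sequences of filtrations. -/
theorem exists_limit_bdd (F : ℕ → Wt 𝕜 V) (C : ℝ)
    (hC : ∀ n x, x ≠ 0 → 0 ≤ (F n).w x ∧ (F n).w x ≤ C) :
    ∃ (φ : ℕ → ℕ) (b : ℕ → Basis (Fin (finrank 𝕜 V)) 𝕜 V)
      (b' : Basis (Fin (finrank 𝕜 V)) 𝕜 V) (lam : Fin (finrank 𝕜 V) → ℝ),
      StrictMono φ ∧ Antitone lam ∧ (∀ n, (F (φ n)).Adapted (b n)) ∧
      (∀ n, Antitone fun i => (F (φ n)).w (b n i)) ∧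
      (∀ i, Tendsto (fun n => (F (φ n)).w (b n i)) atTop (𝓝 (lam i))) ∧
      (∀ (f : V →ₗ[𝕜] 𝕜) (i), Tendsto (fun n => f (b n i)) atTop (𝓝 (f (b' i)))) := by
  classical
  set N := finrank 𝕜 V with hN
  let e : EuclideanSpace 𝕜 (Fin N) ≃ₗ[𝕜] V :=
    LinearEquiv.ofFinrankEq _ _ (by rw [finrank_euclideanSpace_fin])
  have hfr : finrank 𝕜 (EuclideanSpace 𝕜 (Fin N)) = N := finrank_euclideanSpace_fin
  choose B0 hB0 hanti using fun n => ((F n).comapEquiv e).exists_orthonormal_adapted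
  -- the weights
  let L : ℕ → (Fin (finrank 𝕜 (EuclideanSpace 𝕜 (Fin N))) → ℝ) := fun n i =>
    ((F n).comapEquiv e).w (B0 n i)
  have hLmem : ∀ n, L n ∈ Set.pi Set.univ
      (fun _ : Fin (finrank 𝕜 (EuclideanSpace 𝕜 (Fin N))) => Set.Icc (0:ℝ) C) := by
    intro n i _
    have h0 : B0 n i ≠ 0 := (B0 n).orthonormal.ne_zero i
    exact hC n _ ((LinearEquiv.map_ne_zero_iff e).2 h0)
  obtain ⟨l, -, ψ, hψ, hl⟩ := (isCompact_univ_pi
    (fun _ : Fin (finrank 𝕜 (EuclideanSpace 𝕜 (Fin N))) => isCompact_Icc (a := (0:ℝ)) (b := C))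
    ).tendsto_subseq hLmem
  obtain ⟨χ, B', hχ, hlim⟩ := exists_subseq_orthonormal (𝕜 := 𝕜)
    (V := EuclideanSpace 𝕜 (Fin N)) rfl (fun n => B0 (ψ n))
  have hl' : ∀ i, Tendsto (fun n => L (ψ (χ n)) i) atTop (𝓝 (l i)) := fun i =>
    ((tendsto_pi_nhds.1 hl) i).comp hχ.tendsto_atTop
  let c : Fin (finrank 𝕜 (EuclideanSpace 𝕜 (Fin N))) ≃ Fin N := finCongr hfr
  let b : ℕ → Basis (Fin N) 𝕜 V := fun n => ((B0 (ψ (χ n))).toBasis.map e).reindex c
  let b' : Basis (Fin N) 𝕜 V := (B'.toBasis.map e).reindex c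
  have hb : ∀ n i, b n i = e (B0 (ψ (χ n)) (c.symm i)) := by
    intro n i
    simp only [b, Basis.reindex_apply, Basis.map_apply, OrthonormalBasis.coe_toBasis]
  have hb' : ∀ i, b' i = e (B' (c.symm i)) := by
    intro i
    simp only [b', Basis.reindex_apply, Basis.map_apply, OrthonormalBasis.coe_toBasis]
  have hcs : ∀ i j : Fin N, i ≤ j → c.symm i ≤ c.symm j := fun i j h => h
  refine ⟨fun n => ψ (χ n), b, b', fun i => l (c.symm i), hψ.comp hχ, ?_, ?_, ?_, ?_, ?_⟩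
  · intro i j hij
    refine le_of_tendsto_of_tendsto' (hl' (c.symm j)) (hl' (c.symm i)) (fun n => ?_)
    exact hanti (ψ (χ n)) (hcs i j hij)
  · intro n
    apply Adapted.reindex
    intro x i hi
    have h1 := hB0 (ψ (χ n)) (e.symm x) i (by simpa [Basis.map_repr] using hi)
    rw [comapEquiv_w, comapEquiv_w, LinearEquiv.apply_symm_apply] at h1
    rw [Basis.map_apply]
    exact h1
  · intro n i j hij
    simp only [hb]
    exact hanti (ψ (χ n)) (hcs i j hij)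
  · intro i
    simp only [hb]
    exact hl' (c.symm i)
  · intro f i
    have hcont : Continuous (f.comp e.toLinearMap) := LinearMap.continuous_of_finiteDimensional _
    have h1 := (hcont.tendsto (B' (c.symm i))).comp (hlim (c.symm i))
    simp only [hb, hb']
    exact h1

omit [FiniteDimensional 𝕜 V] in
/-- criterion for membership in the domain -/
theorem dom_ofBasis {Hz : Submodule 𝕜 V} {ι : Type*} (b : Basis ι 𝕜 V) {l : ι → ℝ}
    (h0 : ∀ i, 0 ≤ l i) (h : ∀ i, 0 < l i → b i ∈ Hz) : Dom Hz (ofBasis b l) := by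
  classical
  refine ⟨fun x hx => (le_ofBasis_iff b l hx).2 fun i _ => h0 i, fun x hx => ?_⟩
  have hx0 : x ≠ 0 := fun h => hx (h ▸ Hz.zero_mem)
  refine le_antisymm ?_ ((le_ofBasis_iff b l hx0).2 fun i _ => h0 i)
  by_contra hlt
  push Not at hlt
  apply hx
  have hall : ∀ i, b.repr x i ≠ 0 → b i ∈ Hz := fun i hi =>
    h i (hlt.trans_le ((le_ofBasis_iff b l hx0).1 le_rfl i hi))
  rw [← b.linearCombination_repr x, Finsupp.linearCombination_apply, Finsupp.sum]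
  exact Submodule.sum_mem _ fun i hi => Hz.smul_mem _ (hall i (by simpa using hi))

namespace Slope

variable {Hz : Submodule 𝕜 V} {a : Wt 𝕜 V → ℝ} {c0 : ℝ}

theorem congr (h : Slope Hz a c0) {F G : Wt 𝕜 V} (hF : Dom Hz F) (hG : Dom Hz G)
    (heq : ∀ x, x ≠ 0 → F.w x = G.w x) : a F = a G :=
  le_antisymm (h.mono F G hF hG fun x hx => (heq x hx).le)
    (h.mono G F hG hF fun x hx => (heq x hx).ge)

theorem zero (h : Slope Hz a c0) : a (zeroF : Wt 𝕜 V) = 0 := by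
  have h1 := h.hom zeroF 0 (dom_zeroF Hz) le_rfl
  rw [zero_mul] at h1
  rw [← h1]
  refine h.congr (dom_zeroF Hz) ((dom_zeroF Hz).scale le_rfl) fun x _ => ?_
  rw [scale_w le_rfl, zero_mul, zeroF_w]

theorem nonneg (h : Slope Hz a c0) {F : Wt 𝕜 V} (hF : Dom Hz F) : 0 ≤ a F := by
  rw [← h.zero]
  exact h.mono _ _ (dom_zeroF Hz) hF fun x hx => hF.nonneg x hx

theorem T_nonneg {F : Wt 𝕜 V} (hF : Dom Hz F) : 0 ≤ F.T := by
  rw [← S_one]
  exact S_nonneg (fun _ => zero_le_one) fun x hx => hF.nonneg x hx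

theorem w_le_T {F : Wt 𝕜 V} (hF : Dom Hz F) {x : V} (hx : x ≠ 0) : F.w x ≤ F.T := by
  have := le_S_of_mem (κ := fun _ : Fin (finrank 𝕜 V) => (1:ℝ)) (fun _ => zero_le_one)
    (c := 1) (fun _ => le_rfl) (F := F) (fun x hx => hF.nonneg x hx) hx
  rwa [S_one, one_mul] at this

theorem w_le (h : Slope Hz a c0) {F : Wt 𝕜 V} (hF : Dom Hz F) {x : V} (hx : x ≠ 0) :
    c0 * F.w x ≤ a F :=
  (mul_le_mul_of_nonneg_left (w_le_T hF hx) h.pos.le).trans (h.low F hF)

/-- **The minimum of `a` on `{S κ = 1}` is attained.** -/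
theorem exists_min (h : Slope Hz a c0) {κ : Fin (finrank 𝕜 V) → ℝ} (hκ : Monotone κ)
    (hκ0 : ∀ i, 0 < κ i) (hHz : Hz ≠ ⊥) :
    ∃ F : Wt 𝕜 V, Dom Hz F ∧ S κ F = 1 ∧ 0 < a F ∧ ∀ G, Dom Hz G → a F * S κ G ≤ a G := by
  classical
  have hκ0' : ∀ i, 0 ≤ κ i := fun i => (hκ0 i).le
  -- a nonzero vector of `Hz`
  obtain ⟨x0, hx0, hx0'⟩ := Submodule.exists_mem_ne_zero_of_ne_bot hHz
  have hpos : 0 < finrank 𝕜 V := by
    have : Nontrivial V := ⟨x0, 0, hx0'⟩
    exact finrank_pos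
  -- lower bound of κ
  obtain ⟨c, hc, hcκ⟩ : ∃ c > 0, ∀ i, c ≤ κ i :=
    ⟨κ ⟨0, hpos⟩, hκ0 _, fun i => hκ (Fin.mk_le_mk.2 (Nat.zero_le _))⟩
  have hSpos : ∀ F : Wt 𝕜 V, Dom Hz F → (∃ x, x ≠ 0 ∧ 0 < F.w x) → 0 < S κ F := by
    rintro F hF ⟨x, hx, hwx⟩
    exact (mul_pos hc hwx).trans_le (le_S_of_mem hκ0' hcκ (fun y hy => hF.nonneg y hy) hx)
  -- the set of values
  let Q : Set ℝ := {r | ∃ F : Wt 𝕜 V, Dom Hz F ∧ S κ F = 1 ∧ a F = r}
  have hQne : Q.Nonempty := by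
    have h1 : 0 < S κ (ind Hz : Wt 𝕜 V) :=
      hSpos _ (dom_ind Hz) ⟨x0, hx0', by rw [ind_of_mem hx0]; norm_num⟩
    refine ⟨_, scale (S κ (ind Hz : Wt 𝕜 V))⁻¹ (ind Hz), (dom_ind Hz).scale (inv_nonneg.2 h1.le),
      ?_, rfl⟩
    rw [S_scale hκ (inv_nonneg.2 h1.le), inv_mul_cancel₀ h1.ne']
  have hQbdd : BddBelow Q := ⟨0, by rintro r ⟨F, hF, -, rfl⟩; exact h.nonneg hF⟩
  set I := sInf Q with hI
  have hseq : ∀ n : ℕ, ∃ F : Wt 𝕜 V, Dom Hz F ∧ S κ F = 1 ∧ a F < I + 1 / ((n : ℝ) + 1) := by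
    intro n
    obtain ⟨r, ⟨F, hF, hS, rfl⟩, hlt⟩ := exists_lt_of_csInf_lt hQne
      (lt_add_of_pos_right I (by positivity : (0:ℝ) < 1 / ((n : ℝ) + 1)))
    exact ⟨F, hF, hS, hlt⟩
  choose F hFD hFS hFa using hseq
  -- bounded weights
  have hbd : ∀ n x, x ≠ 0 → 0 ≤ (F n).w x ∧ (F n).w x ≤ c⁻¹ := by
    intro n x hx
    refine ⟨(hFD n).nonneg x hx, ?_⟩
    have h1 := le_S_of_mem hκ0' hcκ (fun y hy => (hFD n).nonneg y hy) hx
    rw [hFS n] at h1
    rw [inv_eq_one_div, le_div_iff₀ hc]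
    linarith
  obtain ⟨φ, b, b', lam, hφ, hlam, hadp, hanti, hlim, hlimf⟩ := exists_limit_bdd F c⁻¹ hbd
  have hlam0 : ∀ i, 0 ≤ lam i := fun i =>
    ge_of_tendsto' (hlim i) fun n => (hbd (φ n) _ ((b n).ne_zero i)).1
  -- the limit filtration
  let G := ofBasis b' lam
  have hSG : S κ G = 1 := by
    rw [S_ofBasis hκ b' hlam]
    have h1 : Tendsto (fun n => ∑ i, κ i * (F (φ n)).w (b n i)) atTop
        (𝓝 (∑ i, κ i * lam i)) := tendsto_finsetSum _ fun i _ => (hlim i).const_mul _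
    have h2 : (fun n => ∑ i, κ i * (F (φ n)).w (b n i)) = fun _ => (1:ℝ) := by
      funext n
      rw [← S_eq_sum hκ (hadp n) (hanti n), hFS]
    rw [h2] at h1
    exact (tendsto_nhds_unique h1 tendsto_const_nhds)
  have hmem : ∀ i, 0 < lam i → b' i ∈ Hz := by
    intro i hi
    by_contra hnot
    obtain ⟨f, hf1, hf2⟩ := Submodule.exists_le_ker_of_notMem hnot
    have h1 := hlimf f i
    have h2 : ∀ᶠ n in atTop, f (b n i) = 0 := by
      filter_upwards [(hlim i).eventually (lt_mem_nhds hi)] with n hn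
      have : b n i ∈ Hz := by
        by_contra hcon
        rw [(hFD (φ n)).zero _ hcon] at hn
        exact lt_irrefl _ hn
      exact LinearMap.mem_ker.1 (hf2 this)
    have h3 : Tendsto (fun n => f (b n i)) atTop (𝓝 0) :=
      (tendsto_congr' (h2.mono fun n hn => hn)).2 tendsto_const_nhds
    exact hf1 (tendsto_nhds_unique h1 h3)
  have hGD : Dom Hz G := dom_ofBasis b' hlam0 hmem
  -- lower semicontinuity
  have hkey : ∀ δ, 0 < δ → δ < 1 → (1 - δ) * a G ≤ I + δ := by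
    intro δ hδ hδ1
    have h1δ : 0 ≤ 1 - δ := by linarith
    have hlamδ : Antitone fun i => (1 - δ) * lam i := fun i j hij =>
      mul_le_mul_of_nonneg_left (hlam hij) h1δ
    -- eventually `(1 - δ) lam i ≤ w`
    have hev : ∀ᶠ n in atTop, ∀ i, (1 - δ) * lam i ≤ (F (φ n)).w (b n i) := by
      rw [eventually_all]
      intro i
      rcases (hlam0 i).eq_or_lt with h0 | h0
      · refine Eventually.of_forall fun n => ?_
        rw [← h0, mul_zero]
        exact (hbd (φ n) _ ((b n).ne_zero i)).1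
      · have h2 : (1 - δ) * lam i < lam i := by nlinarith
        filter_upwards [(hlim i).eventually (lt_mem_nhds h2)] with n hn using hn.le
    obtain ⟨n0, hn0⟩ := eventually_atTop.1 hev
    have hdomn : ∀ n, Dom Hz (ofBasis (b (n + n0)) fun i => (1 - δ) * lam i) := by
      intro n
      refine dom_ofBasis _ (fun i => mul_nonneg h1δ (hlam0 i)) fun i hi => ?_
      by_contra hcon
      have h3 := hn0 (n + n0) (Nat.le_add_left _ _) i
      rw [(hFD _).zero _ hcon] at h3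
      linarith
    have hlimf' : ∀ (f : V →ₗ[𝕜] 𝕜) (i), Tendsto (fun n => f (b (n + n0) i)) atTop
        (𝓝 (f (b' i))) := fun f i => (tendsto_add_atTop_iff_nat n0).2 (hlimf f i)
    have hfreq := h.lsc (fun n => b (n + n0)) b' (fun i => (1 - δ) * lam i) hlamδ hdomn hlimf'
      (δ / 2) (half_pos hδ)
    -- for large n also `a (F (φ n)) ≤ I + δ / 2`
    have hlarge : ∀ᶠ n : ℕ in atTop, a (F (φ (n + n0))) ≤ I + δ / 2 := by
      obtain ⟨n1, hn1⟩ := exists_nat_one_div_lt (half_pos hδ)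
      filter_upwards [eventually_ge_atTop n1] with n hn
      refine (hFa _).le.trans ?_
      have h4 : (n1 : ℝ) ≤ (φ (n + n0) : ℕ) := by
        exact_mod_cast (hn.trans (Nat.le_add_right _ _)).trans (hφ.id_le _)
      have h5 : 1 / ((φ (n + n0) : ℝ) + 1) ≤ 1 / ((n1 : ℝ) + 1) :=
        one_div_le_one_div_of_le (by positivity) (by linarith)
      linarith
    obtain ⟨n, hn1, hn2⟩ := (hfreq.and_eventually hlarge).exists
    have h6 : a (ofBasis (b (n + n0)) fun i => (1 - δ) * lam i) ≤ a (F (φ (n + n0))) := by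
      refine h.mono _ _ (hdomn n) (hFD _) fun x hx => ?_
      refine le_w_of_forall_basis (b (n + n0)) hx fun i hi => ?_
      exact ((le_ofBasis_iff _ _ hx).1 le_rfl i hi).trans (hn0 _ (Nat.le_add_left _ _) i)
    have h7 : a (ofBasis b' fun i => (1 - δ) * lam i) = (1 - δ) * a G := by
      rw [← h.hom G (1 - δ) hGD h1δ]
      refine h.congr (dom_ofBasis b' (fun i => mul_nonneg h1δ (hlam0 i)) fun i hi =>
        hmem i (by
          by_contra hcon
          push Not at hcon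
          nlinarith)) (hGD.scale h1δ) fun x hx => ?_
      refine (ofBasis_adapted b' _).eq_of_eq (scale_adapted h1δ (ofBasis_adapted b' lam))
        (fun i => ?_) hx
      rw [ofBasis_basis, scale_w h1δ, ofBasis_basis]
    rw [h7] at hn1
    linarith
  have haG : a G ≤ I := by
    by_contra hcon
    push Not at hcon
    have haG0 := h.nonneg hGD
    set δ := min (1/2) ((a G - I) / (2 * (a G + 1))) with hδ
    have hd1 : 0 < δ := lt_min (by norm_num) (div_pos (by linarith) (by linarith))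
    have hd2 : δ < 1 := (min_le_left _ _).trans_lt (by norm_num)
    have h8 := hkey δ hd1 hd2
    have h9 : δ * (2 * (a G + 1)) ≤ a G - I := by
      rw [← le_div_iff₀ (by linarith)]
      exact min_le_right _ _
    nlinarith
  have hImem : ∀ G', Dom Hz G' → S κ G' = 1 → I ≤ a G' := fun G' hG' hS' =>
    csInf_le hQbdd ⟨G', hG', hS', rfl⟩
  have hTpos : 0 < a G := by
    have h1 : 0 < G.T := by
      by_contra hcon
      push Not at hcon
      have h2 : ∀ x, x ≠ 0 → G.w x = 0 := fun x hx =>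
        le_antisymm ((w_le_T hGD hx).trans hcon) (hGD.nonneg x hx)
      have h3 : S κ G = S κ (zeroF : Wt 𝕜 V) := S_congr hκ hκ0' fun x hx => by
        rw [h2 x hx, zeroF_w]
      rw [hSG] at h3
      have h4 : S κ (zeroF : Wt 𝕜 V) = 0 := by simp [S]
      rw [h4] at h3
      norm_num at h3
    exact (mul_pos h.pos h1).trans_le (h.low G hGD)
  refine ⟨G, hGD, hSG, hTpos, fun G' hG' => ?_⟩
  rcases (S_nonneg hκ0' fun x hx => hG'.nonneg x hx).eq_or_lt with h0 | h0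
  · rw [← h0, mul_zero]
    exact h.nonneg hG'
  · have h1 := hImem (scale (S κ G')⁻¹ G') (hG'.scale (inv_nonneg.2 h0.le))
      (by rw [S_scale hκ (inv_nonneg.2 h0.le), inv_mul_cancel₀ h0.ne'])
    rw [h.hom G' _ hG' (inv_nonneg.2 h0.le)] at h1
    have h2 := haG.trans h1
    rw [inv_mul_eq_div, le_div_iff₀ h0] at h2
    exact h2

end Slope

end Vale.Agent.P271.H43
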