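import Vale.Agent.P271.H43.One
import Vale.Agent.P271.H604.Slope43
import Vale.Agent.P271.H604.Val
import Vale.Agent.P271.H84.OfSat

/-!
# P271 / H43 : the minimiser of a level is (the restriction of) a valuation (helper43)
-/

namespace Vale.Agent.P271.H43

open Module Filter Topology Vale.Agent.P271.Filt Vale.Agent.P271.Filt.Wt Vale.Agent.P271.Chain
  Vale.Agent.P271.Exp Vale.Agent.P271.Sch Vale.Agent.P271.Inst Vale.Agent.P271.Zorn
  Vale.Agent.P271.H84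

variable {n : ℕ} {C : GCone n}

theorem zero_notMem_HM (C : GCone n) : (0 : C.R) ∉ HM C := fun h => h.1 rfl

theorem mem_HM_of {m : ℕ} (y : C.A m) (hy : y ≠ 0) : (y : C.R) ∈ HM C :=
  mem_HM.2 ⟨fun h0 => hy (Subtype.ext h0), m, y.2⟩

theorem HmOf_of_mem {m : ℕ} : ∀ y ∈ C.A m, HmOf (HM C) y := fun y hy => by
  by_cases h : y = 0
  · exact Or.inr h
  · exact Or.inl (mem_HM.2 ⟨h, m, hy⟩)

variable {X : Type*} [TopologicalSpace X]

section exp

variable {R₀ : Type*} [CommRing R₀] [Algebra ℂ R₀] {Hm : R₀ → Prop}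
  (E : ExpSys R₀ Hm X) {V : Submodule ℂ R₀} [FiniteDimensional ℂ V]

omit [FiniteDimensional ℂ V] in
/-- A nonnegative filtration of finite slope vanishes outside `Hz`. -/
theorem dom_of_vsl (hV : ∀ v ∈ V, Hm v) {x : X} {G : Wt ℂ V} (h0 : ∀ v, v ≠ 0 → 0 ≤ G.w v)
    {c : ℝ} (h : VSl (E.P x) V.subtype G.w c) : Dom (E.Hz x V) G := by
  classical
  refine ⟨h0, fun v hv => ?_⟩
  have hv0 : v ≠ 0 := fun h => hv (h ▸ Submodule.zero_mem _)
  have hev : E.ev x (v : R₀) ≠ 0 := fun h => hv (E.mem_Hz.2 h)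
  have h1 : ∀ t : ℝ, 0 ≤ t → t * G.w v ≤ c := by
    intro t ht
    have h2 := h (Finsupp.single v t) (single_nonneg' ht) (by
      rw [Finsupp.mapDomain_single]
      have h3 := E.unit x (v : R₀) (hV _ v.2) hev 0 t (E.isExp x).zero_mem
      rwa [zero_add] at h3)
    rwa [dot_single] at h2
  by_contra hne
  have hpos : 0 < G.w v := lt_of_le_of_ne (h0 v hv0) (Ne.symm hne)
  have hc : 0 ≤ c := by simpa using h1 0 le_rfl
  have h2 := h1 ((c + 1) / G.w v) (by positivity)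
  rw [div_mul_cancel₀ _ hpos.ne'] at h2
  linarith

/-- Minimality of a minimiser in terms of `VSl`. -/
theorem Minim.vsl_min (hV : ∀ v ∈ V, Hm v) {x : X} {κ : Fin (finrank ℂ V) → ℝ} {R : ℝ}
    {F : Wt ℂ V} (hF : Minim (E.Hz x V) (E.a x V) κ R F) :
    ∀ G : Wt ℂ V, (∀ v, v ≠ 0 → 0 ≤ G.w v) → ∀ c, VSl (E.P x) V.subtype G.w c →
      R * S κ G ≤ c := by
  intro G h0 c h
  have hdom := dom_of_vsl E hV h0 h
  exact (hF.le G hdom).trans ((E.a_le_iff hV hdom).2 h)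

theorem Minim.vsl (hV : ∀ v ∈ V, Hm v) {x : X} {κ : Fin (finrank ℂ V) → ℝ} {R : ℝ}
    {F : Wt ℂ V} (hF : Minim (E.Hz x V) (E.a x V) κ R F) :
    VSl (E.P x) V.subtype F.w (R * S κ F) := by
  rw [hF.S_eq, mul_one]
  exact (E.a_le_iff hV hF.dom).1 hF.a_eq.le

end exp

/-- **The minimiser is a valuation.** -/
theorem exists_sat_of_minim (E : ExpSys C.R (HmOf (HM C)) X) (x : X) {D : Dat (HM C)}
    (hP : E.P x = extP (HM C) D.P) (hS : ∀ f g s : HM C, SumRel f g s → D.Sum f g s) {m : ℕ}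
    [FiniteDimensional ℂ (C.A m)] {κ : Fin (finrank ℂ (C.A m)) → ℝ} {R : ℝ} {F : Wt ℂ (C.A m)}
    (hF : Minim (E.Hz x (C.A m)) (E.a x (C.A m)) κ R F) :
    ∃ v : HM C → ℝ, D.Sat v R ∧ (∀ f : HM C, E.ev x (f : C.R) ≠ 0 → v f = 0) ∧
      ∀ y : C.A m, ∀ hy : y ≠ 0, F.w y = v ⟨y, mem_HM_of y hy⟩ := by
  have hV : ∀ y ∈ C.A m, HmOf (HM C) y := HmOf_of_mem
  have h1 : VSl (extP (HM C) D.P) (C.A m).subtype F.w R := by
    rw [← hP, ← E.a_le_iff hV hF.dom]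
    exact hF.a_eq.le
  obtain ⟨v, hsat, hle, hv⟩ := exists_sat_of_vsl (zero_notMem_HM C) D hF.dom.nonneg h1
  have h0 : ∀ f : HM C, E.ev x (f : C.R) ≠ 0 → v f = 0 := by
    intro f hf
    refine hsat.eq_zero fun t => ?_
    have h2 := E.unit x (f : C.R) (Or.inl f.2) hf 0 t (E.isExp x).zero_mem
    rw [zero_add, hP] at h2
    rw [← mapDomain_mem_extP, Finsupp.mapDomain_single]
    exact h2
  have hval := hval_of_sat hS hsat
  have hw : ∀ y : C.A m, ∀ hy : y ≠ 0, (hval.rval.wt (C.A m)).w y = v ⟨y, mem_HM_of y hy⟩ :=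
    fun y hy => wt_mk hval y hy
  have hdom : Dom (E.Hz x (C.A m)) (hval.rval.wt (C.A m)) := by
    refine ⟨fun y hy => ?_, fun y hy => ?_⟩
    · rw [hw y hy]
      exact hsat.nonneg _
    · have hy0 : y ≠ 0 := fun h => hy (h ▸ Submodule.zero_mem _)
      rw [hw y hy0]
      exact h0 _ fun h => hy (E.mem_Hz.2 h)
  have ha : E.a x (C.A m) (hval.rval.wt (C.A m)) ≤ R := by
    rw [E.a_le_iff hV hdom]
    refine VSl.mono (E.isExp x) Subtype.val_injective (w' := ofVal (HM C) (C.A m) v) ?_ ?_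
    · rw [hP]; exact hv
    · intro y hy
      rw [hw y hy, ofVal_of_mem (mem_HM_of y hy)]
  refine ⟨v, hsat, h0, fun y hy => ?_⟩
  rw [← hw y hy]
  refine (hF.sat hdom (fun y hy => ?_) ha hy).symm
  rw [hw y hy]
  exact hle y (mem_HM_of y hy)

end Vale.Agent.P271.H43
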