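import Vale.Agent.P271.Filt.Limit
import Vale.Agent.P271.Chain.Metric

/-!
# P271 / H43 : the sorted functional `S κ F = ∑ κ_i w_i(F)` on filtrations (helper43)

`w_0 ≥ w_1 ≥ ...` are the jumps of `F` in decreasing order and `κ` is monotone (the largest
coefficient is put on the smallest jump).
-/

namespace Vale.Agent.P271.H43

open Module Filter Topology Vale.Agent.P271.Filt Vale.Agent.P271.Filt.Wt Vale.Agent.P271.Chain

variable {K : Type*} {V : Type*} [Field K] [AddCommGroup V] [Module K V] [FiniteDimensional K V]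

/-- an adapted basis with decreasing weights -/
noncomputable def antib (F : Wt K V) : Basis (Fin (finrank K V)) K V :=
  F.exists_adapted_antitone.choose

theorem adapted_antib (F : Wt K V) : F.Adapted (antib F) :=
  F.exists_adapted_antitone.choose_spec.1

theorem antitone_antib (F : Wt K V) : Antitone (fun i => F.w (antib F i)) :=
  F.exists_adapted_antitone.choose_spec.2

/-- The sorted functional. -/
noncomputable def S (κ : Fin (finrank K V) → ℝ) (F : Wt K V) : ℝ :=
  ∑ i, κ i * F.w (antib F i)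

/-- two adapted bases have the same weights up to a permutation -/
theorem exists_perm {F : Wt K V} {ι ι' : Type*} [Fintype ι] [Fintype ι'] {b : Basis ι K V}
    {b' : Basis ι' K V} (hb : F.Adapted b) (hb' : F.Adapted b') :
    ∃ e : ι' ≃ ι, ∀ j, F.w (b' j) = F.w (b (e j)) := by
  classical
  obtain ⟨e, he⟩ := exists_equiv_repr_ne_zero b' b
  have hle : ∀ j ∈ Finset.univ, F.w (b' j) ≤ F.w (b (e j)) := fun j _ => hb _ _ (he j)
  have hsum : ∑ j, F.w (b' j) = ∑ j, F.w (b (e j)) := by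
    rw [hb'.sum_eq, Equiv.sum_comp e (fun i => F.w (b i)), hb.sum_eq]
  exact ⟨e, fun j => (Finset.sum_eq_sum_iff_of_le hle).1 hsum j (Finset.mem_univ j)⟩

section Rearr

variable {κ : Fin (finrank K V) → ℝ}

omit [FiniteDimensional K V] in
theorem rearr (hκ : Monotone κ) {l : Fin (finrank K V) → ℝ} (hl : Antitone l)
    (σ : Fin (finrank K V) ≃ Fin (finrank K V)) : ∑ i, κ i * l i ≤ ∑ i, κ i * l (σ i) := by
  have h : Antivary κ l := hκ.antivary hl
  exact h.sum_mul_le_sum_mul_comp_perm (σ := σ)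

theorem S_le_sum (hκ : Monotone κ) {F : Wt K V} {b : Basis (Fin (finrank K V)) K V}
    (hb : F.Adapted b) : S κ F ≤ ∑ i, κ i * F.w (b i) := by
  obtain ⟨e, he⟩ := exists_perm (adapted_antib F) hb
  calc S κ F ≤ ∑ i, κ i * F.w (antib F (e i)) := rearr hκ (antitone_antib F) e
    _ = _ := Finset.sum_congr rfl fun i _ => by rw [he]

theorem S_eq_sum (hκ : Monotone κ) {F : Wt K V} {b : Basis (Fin (finrank K V)) K V}
    (hb : F.Adapted b) (hanti : Antitone fun i => F.w (b i)) :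
    S κ F = ∑ i, κ i * F.w (b i) := by
  refine le_antisymm (S_le_sum hκ hb) ?_
  obtain ⟨e, he⟩ := exists_perm hb (adapted_antib F)
  calc ∑ i, κ i * F.w (b i) ≤ ∑ i, κ i * F.w (b (e i)) := rearr hκ hanti e
    _ = _ := Finset.sum_congr rfl fun i _ => by rw [he]

theorem S_ofBasis (hκ : Monotone κ) (b : Basis (Fin (finrank K V)) K V)
    {l : Fin (finrank K V) → ℝ} (hl : Antitone l) : S κ (ofBasis b l) = ∑ i, κ i * l i := by
  rw [S_eq_sum hκ (ofBasis_adapted b l) (by simpa only [ofBasis_basis] using hl)]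
  simp only [ofBasis_basis]

theorem S_ofBasis_le (hκ : Monotone κ) (b : Basis (Fin (finrank K V)) K V)
    (l : Fin (finrank K V) → ℝ) : S κ (ofBasis b l) ≤ ∑ i, κ i * l i := by
  refine (S_le_sum hκ (ofBasis_adapted b l)).trans (le_of_eq ?_)
  simp only [ofBasis_basis]

/-- a basis adapted to both filtrations, sorted for the second -/
theorem exists_common_sorted (F G : Wt K V) : ∃ b : Basis (Fin (finrank K V)) K V,
    F.Adapted b ∧ G.Adapted b ∧ Antitone fun i => G.w (b i) := by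
  obtain ⟨b0, hF, hG⟩ := F.exists_adapted₂ G
  let f : Fin (finrank K V) → ℝ := fun i => -G.w (b0 i)
  let σ := Tuple.sort f
  have hσ : Monotone (f ∘ σ) := Tuple.monotone_sort f
  refine ⟨b0.reindex σ.symm, hF.reindex σ.symm, hG.reindex σ.symm, ?_⟩
  intro i j hij
  have h := hσ hij
  simp only [Function.comp_apply, f] at h
  simp only [Basis.reindex_apply, Equiv.symm_symm]
  linarith

theorem S_mono (hκ : Monotone κ) (hκ0 : ∀ i, 0 ≤ κ i) {F G : Wt K V}
    (h : ∀ x, x ≠ 0 → F.w x ≤ G.w x) : S κ F ≤ S κ G := by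
  obtain ⟨b, hF, hG, hanti⟩ := exists_common_sorted F G
  rw [S_eq_sum hκ hG hanti]
  exact (S_le_sum hκ hF).trans (Finset.sum_le_sum fun i _ =>
    mul_le_mul_of_nonneg_left (h _ (b.ne_zero i)) (hκ0 i))

/-- strict monotonicity -/
theorem eq_of_S_le (hκ : Monotone κ) (hκ0 : ∀ i, 0 < κ i) {F G : Wt K V}
    (h : ∀ x, x ≠ 0 → F.w x ≤ G.w x) (hS : S κ G ≤ S κ F) {x : V} (hx : x ≠ 0) :
    F.w x = G.w x := by
  obtain ⟨b, hF, hG, hanti⟩ := exists_common_sorted F G
  rw [S_eq_sum hκ hG hanti] at hS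
  have h1 := hS.trans (S_le_sum hκ hF)
  have hle : ∀ i ∈ Finset.univ, κ i * F.w (b i) ≤ κ i * G.w (b i) := fun i _ =>
    mul_le_mul_of_nonneg_left (h _ (b.ne_zero i)) (hκ0 i).le
  have heq := (Finset.sum_eq_sum_iff_of_le hle).1 (le_antisymm (Finset.sum_le_sum hle) h1)
  exact hF.eq_of_eq hG (fun i => mul_left_cancel₀ (hκ0 i).ne' (heq i (Finset.mem_univ i))) hx

theorem S_congr (hκ : Monotone κ) (hκ0 : ∀ i, 0 ≤ κ i) {F G : Wt K V}
    (h : ∀ x, x ≠ 0 → F.w x = G.w x) : S κ F = S κ G :=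
  le_antisymm (S_mono hκ hκ0 fun x hx => (h x hx).le) (S_mono hκ hκ0 fun x hx => (h x hx).ge)

theorem S_scale (hκ : Monotone κ) {t : ℝ} (ht : 0 ≤ t) (F : Wt K V) :
    S κ (scale t F) = t * S κ F := by
  rw [S_eq_sum hκ (scale_adapted ht (adapted_antib F)) (fun i j hij => by
    simp only [scale_w ht]
    exact mul_le_mul_of_nonneg_left (antitone_antib F hij) ht), S, Finset.mul_sum]
  exact Finset.sum_congr rfl fun i _ => by rw [scale_w ht]; ring

theorem S_nonneg (hκ0 : ∀ i, 0 ≤ κ i) {F : Wt K V} (hF : ∀ x, x ≠ 0 → 0 ≤ F.w x) :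
    0 ≤ S κ F :=
  Finset.sum_nonneg fun i _ => mul_nonneg (hκ0 i) (hF _ ((antib F).ne_zero i))

/-- a term of the sum -/
theorem le_S_of_mem (hκ0 : ∀ i, 0 ≤ κ i) {c : ℝ} (hc' : ∀ i, c ≤ κ i) {F : Wt K V}
    (hF : ∀ x, x ≠ 0 → 0 ≤ F.w x) {x : V} (hx : x ≠ 0) : c * F.w x ≤ S κ F := by
  obtain ⟨i, hi, heq⟩ := (adapted_antib F).exists_eq hx
  rw [heq]
  calc c * F.w (antib F i) ≤ κ i * F.w (antib F i) :=
        mul_le_mul_of_nonneg_right (hc' i) (hF _ ((antib F).ne_zero i))
    _ ≤ _ := Finset.single_le_sum (f := fun i => κ i * F.w (antib F i))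
        (fun j _ => mul_nonneg (hκ0 j) (hF _ ((antib F).ne_zero j))) (Finset.mem_univ i)

/-- `S` is linear in `κ`. -/
theorem S_add (κ κ' : Fin (finrank K V) → ℝ) (F : Wt K V) :
    S (κ + κ') F = S κ F + S κ' F := by
  simp only [S, Pi.add_apply, add_mul, Finset.sum_add_distrib]

theorem S_smul (c : ℝ) (κ : Fin (finrank K V) → ℝ) (F : Wt K V) :
    S (c • κ) F = c * S κ F := by
  simp only [S, Pi.smul_apply, smul_eq_mul, mul_assoc, Finset.mul_sum]

theorem S_one (F : Wt K V) : S (fun _ => 1) F = F.T := by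
  simp only [S, one_mul]
  exact (adapted_antib F).sum_eq

end Rearr

end Vale.Agent.P271.H43
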